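import Crest.Agent.N325.Dj.Pq

/-!
# Row 325 (helper27): bounded Dijkstra search, local and with many sources
-/

set_option autoImplicit false
open Finset

namespace Crest.Agent.N325.Dj

/-- a directed graph by accessors: the arcs at `x` are the `e ∈ adj x` with `ok x e`, they lead to
`hd x e` and have the length `ln x e` -/
structure Dg where
  adj : ℕ → List ℕ
  ok : ℕ → ℕ → Bool
  hd : ℕ → ℕ → ℕ
  ln : ℕ → ℕ → ℕ

/-- walks from the sources `S` (vertex, offset): end point and length -/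
inductive Wk (G : Dg) (S : List (ℕ × ℕ)) : ℕ → ℕ → Prop
  | base {x d : ℕ} : (x, d) ∈ S → Wk G S x d
  | step {x d e : ℕ} : Wk G S x d → e ∈ G.adj x → G.ok x e = true →
      Wk G S (G.hd x e) (d + G.ln x e)

/-- `x` at distance `d` is a source (`p.1 = x`) or is reached by the arc `p.2` from `p.1 ∈ l` -/
def Par (G : Dg) (S : List (ℕ × ℕ)) (D : ℕ → ℕ) (l : List ℕ) (x d : ℕ) (p : ℕ × ℕ) : Prop :=
  (p.1 = x ∧ (x, d) ∈ S) ∨ (p.1 ∈ l ∧ p.2 ∈ G.adj p.1 ∧ G.ok p.1 p.2 = true ∧ G.hd p.1 p.2 = x ∧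
    d = D p.1 + G.ln p.1 p.2)

/-- every vertex of the list has its parent later in the list -/
def Tree (G : Dg) (S : List (ℕ × ℕ)) (D : ℕ → ℕ) (P : ℕ → ℕ × ℕ) : List ℕ → Prop
  | [] => True
  | x :: l => Par G S D l x (D x) (P x) ∧ Tree G S D P l

/-- settled vertices (most recent first), distances, parents, marks -/
abbrev Out : Type := List ℕ × Arr ℕ × Arr (ℕ × ℕ) × Arr Bool

/-- the volume of a list of vertices -/
def vol (G : Dg) (L : List ℕ) : ℕ := (L.map fun x => 1 + (G.adj x).length).sum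

/-- **the result of the search** -/
structure Res (G : Dg) (S : List (ℕ × ℕ)) (r : ℕ) (o : Out) : Prop where
  nd : o.1.Nodup
  vis : ∀ x, o.2.2.2.get x = true ↔ x ∈ o.1
  wk : ∀ x ∈ o.1, Wk G S x (o.2.1.get x) ∧ o.2.1.get x ≤ r
  min : ∀ x d, Wk G S x d → d ≤ r → x ∈ o.1 ∧ o.2.1.get x ≤ d
  srt : o.1.Pairwise fun a b => o.2.1.get b ≤ o.2.1.get a
  tree : Tree G S o.2.1.get o.2.2.1.get o.1

/-- settle the vertex of the item `it` at distance `k` -/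
def settle (G : Dg) (B r k : ℕ) (it : ℕ × ℕ × ℕ) (q : PQ (ℕ × ℕ × ℕ)) (o : Out) :
    R (PQ (ℕ × ℕ × ℕ) × Out) :=
  if o.2.2.2.get it.1 = true then pure (q, o) else
    pushAll B r (G.ok it.1) (fun e => k + G.ln it.1 e) (fun e => (G.hd it.1 e, it.1, e))
      (G.adj it.1) q >>= fun q' =>
    pure (q', it.1 :: o.1, o.2.1.set it.1 k, o.2.2.1.set it.1 it.2, o.2.2.2.set it.1 true)

/-- one extraction -/
def body (G : Dg) (B r : ℕ) (s : PQ (ℕ × ℕ × ℕ) × Out) : R (PQ (ℕ × ℕ × ℕ) × Out) :=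
  minQ B r s.1 >>= fun k => List.casesOn (motive := fun _ => R (PQ (ℕ × ℕ × ℕ) × Out))
    (s.1.2.get k) (pure s) fun it l => putQ B k l s.1 >>= fun q => settle G B r k it q s.2

/-- **bounded Dijkstra search** -/
def dij (G : Dg) (B r fu : ℕ) (S : List (ℕ × ℕ)) : R Out :=
  pushAll B r (fun _ => true) Prod.snd (fun b => (b.1, b.1, 0)) S (emp _) >>= fun q =>
  whileF (fun s => nonE B s.1) (body G B r) fu
    (q, [], Arr.cst 0, Arr.cst (0, 0), Arr.cst false) >>= fun s => pure s.2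

variable {G : Dg} {S : List (ℕ × ℕ)} {B r : ℕ} {g : Gl}

theorem Par.mono {D D' : ℕ → ℕ} {l l' : List ℕ} {x d : ℕ} {p : ℕ × ℕ} (h : Par G S D l x d p)
    (hl : ∀ y ∈ l, y ∈ l' ∧ D' y = D y) : Par G S D' l' x d p :=
  h.imp_right fun ⟨a, b, c, e, f⟩ => ⟨(hl _ a).1, b, c, e, (hl _ a).2 ▸ f⟩

theorem Tree.congr {D D' : ℕ → ℕ} {P P' : ℕ → ℕ × ℕ} {l : List ℕ} (h : Tree G S D P l)
    (hl : ∀ y ∈ l, D' y = D y ∧ P' y = P y) : Tree G S D' P' l := by
  induction l with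
  | nil => trivial
  | cons x l ih =>
    have e := hl x List.mem_cons_self
    have e' := fun y hy => hl y (List.mem_cons_of_mem _ hy)
    exact ⟨by rw [e.1, e.2]; exact h.1.mono fun y hy => ⟨hy, (e' y hy).1⟩, ih h.2 e'⟩

/-- `x` is settled at distance at most `d`, or waits with the key `d` -/
def Cov (bk : ℕ → List (ℕ × ℕ × ℕ)) (o : Out) (x d : ℕ) : Prop :=
  (x ∈ o.1 ∧ o.2.1.get x ≤ d) ∨ ∃ it ∈ bk d, it.1 = x

/-- the invariant of the search -/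
structure Inv (G : Dg) (S : List (ℕ × ℕ)) (r : ℕ) (bk : ℕ → List (ℕ × ℕ × ℕ)) (o : Out) :
    Prop where
  nd : o.1.Nodup
  vis : ∀ x, o.2.2.2.get x = true ↔ x ∈ o.1
  wk : ∀ x ∈ o.1, Wk G S x (o.2.1.get x) ∧ o.2.1.get x ≤ r
  srt : o.1.Pairwise fun a b => o.2.1.get b ≤ o.2.1.get a
  tree : Tree G S o.2.1.get o.2.2.1.get o.1
  par : ∀ k, ∀ it ∈ bk k, Par G S o.2.1.get o.1 it.1 k it.2
  mon : ∀ k, ∀ it ∈ bk k, ∀ x ∈ o.1, o.2.1.get x ≤ k
  src : ∀ p ∈ S, p.2 ≤ r → Cov bk o p.1 p.2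
  arc : ∀ y ∈ o.1, ∀ e ∈ G.adj y, G.ok y e = true → o.2.1.get y + G.ln y e ≤ r →
    Cov bk o (G.hd y e) (o.2.1.get y + G.ln y e)

variable {bk bk' : ℕ → List (ℕ × ℕ × ℕ)} {o : Out}

theorem Inv.res (h : Inv G S r bk o) (e : ∀ k, bk k = []) : Res G S r o := by
  have c : ∀ x d, Cov bk o x d → x ∈ o.1 ∧ o.2.1.get x ≤ d := fun x d c =>
    c.resolve_right fun ⟨it, m, _⟩ => by simp [e] at m
  refine ⟨h.nd, h.vis, h.wk, fun x d w => ?_, h.srt, h.tree⟩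
  induction w with
  | base m => exact fun k => c _ _ (h.src _ m k)
  | step _ m k ih =>
    intro hd
    obtain ⟨a, b⟩ := ih (by omega)
    obtain ⟨a', b'⟩ := c _ _ (h.arc _ a _ m k (by omega))
    exact ⟨a', by omega⟩

theorem Inv.wk_it (h : Inv G S r bk o) {k : ℕ} {it : ℕ × ℕ × ℕ} (m : it ∈ bk k) :
    Wk G S it.1 k := by
  rcases h.par k it m with ⟨_, a⟩ | ⟨a, b, c, d, e⟩
  · exact .base a
  · rw [e, ← d]; exact .step (h.wk _ a).1 b c

/-- the extraction of an item whose vertex is settled -/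
theorem Inv.skip (h : Inv G S r bk o) {k : ℕ} {it : ℕ × ℕ × ℕ} (m : it ∈ bk k) (hv : it.1 ∈ o.1)
    (h1 : ∀ j a, a ∈ bk' j → a ∈ bk j) (h2 : ∀ j a, a ∈ bk j → a ∈ bk' j ∨ (j = k ∧ a = it)) :
    Inv G S r bk' o := by
  have c : ∀ x d, Cov bk o x d → Cov bk' o x d := fun x d c => by
    rcases c with c | ⟨a, ma, rfl⟩
    · exact .inl c
    · rcases h2 d a ma with k' | ⟨rfl, rfl⟩
      · exact .inr ⟨a, k', rfl⟩
      · exact .inl ⟨hv, h.mon _ _ m _ hv⟩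
  exact ⟨h.nd, h.vis, h.wk, h.srt, h.tree, fun j a ma => h.par j a (h1 j a ma),
    fun j a ma => h.mon j a (h1 j a ma), fun p hp k => c _ _ (h.src p hp k),
    fun y hy e he k k' => c _ _ (h.arc y hy e he k k')⟩

/-- the extraction of an item whose vertex is new -/
theorem Inv.add (h : Inv G S r bk o) {k : ℕ} {it : ℕ × ℕ × ℕ} (m : it ∈ bk k) (hv : it.1 ∉ o.1)
    (hk : k ≤ r) (hmin : ∀ j a, a ∈ bk j → k ≤ j)
    (h1 : ∀ j a, a ∈ bk' j → a ∈ bk j ∨ ∃ e ∈ G.adj it.1, G.ok it.1 e = true ∧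
      k + G.ln it.1 e = j ∧ (G.hd it.1 e, it.1, e) = a)
    (h2 : ∀ j a, a ∈ bk j → a ∈ bk' j ∨ (j = k ∧ a = it))
    (h3 : ∀ e ∈ G.adj it.1, G.ok it.1 e = true → k + G.ln it.1 e ≤ r →
      (G.hd it.1 e, it.1, e) ∈ bk' (k + G.ln it.1 e)) :
    Inv G S r bk'
      (it.1 :: o.1, o.2.1.set it.1 k, o.2.2.1.set it.1 it.2, o.2.2.2.set it.1 true) := by
  have eD : ∀ y ∈ o.1, (o.2.1.set it.1 k).get y = o.2.1.get y := fun y hy =>
    Arr.get_set_ne _ (fun e : y = it.1 => hv (e ▸ hy)) _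
  have eP : ∀ y ∈ o.1, (o.2.2.1.set it.1 it.2).get y = o.2.2.1.get y := fun y hy =>
    Arr.get_set_ne _ (fun e : y = it.1 => hv (e ▸ hy)) _
  have c : ∀ x d, Cov bk o x d → Cov bk'
      (it.1 :: o.1, o.2.1.set it.1 k, o.2.2.1.set it.1 it.2, o.2.2.2.set it.1 true) x d :=
    fun x d c => by
    rcases c with c | ⟨a, ma, rfl⟩
    · exact .inl ⟨List.mem_cons_of_mem _ c.1, (eD _ c.1).trans_le c.2⟩
    · rcases h2 d a ma with k' | ⟨rfl, rfl⟩
      · exact .inr ⟨a, k', rfl⟩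
      · exact .inl ⟨List.mem_cons_self, (Arr.get_set_self _ _ _).le⟩
  have hle : ∀ x ∈ it.1 :: o.1, (o.2.1.set it.1 k).get x ≤ k := fun x hx => by
    rcases List.mem_cons.1 hx with rfl | hx
    · exact (Arr.get_set_self _ _ _).le
    · exact (eD x hx).trans_le (h.mon _ _ m x hx)
  refine ⟨List.nodup_cons.2 ⟨hv, h.nd⟩, fun x => ?_, fun x hx => ?_,
    List.pairwise_cons.2 ⟨fun y hy => ?_, h.srt.imp_of_mem fun ha hb k' => ?_⟩,
    ⟨?_, h.tree.congr fun y hy => ⟨eD y hy, eP y hy⟩⟩, fun j a ma => ?_, fun j a ma x hx => ?_,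
    fun p hp k => c _ _ (h.src p hp k), fun y hy e he k1 k2 => ?_⟩
  · simp only [Arr.get_set, List.mem_cons, ← h.vis]
    split_ifs with e <;> simp [e]
  · rcases List.mem_cons.1 hx with rfl | hx
    · simp only [Arr.get_set_self]; exact ⟨h.wk_it m, hk⟩
    · simp only [eD x hx]; exact h.wk x hx
  · simp only [Arr.get_set_self]; exact hle y (List.mem_cons_of_mem _ hy)
  · simp only [eD _ ha, eD _ hb]; exact k'
  · simp only [Arr.get_set_self]; exact (h.par k it m).mono fun y hy => ⟨hy, eD y hy⟩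
  · rcases h1 j a ma with k' | ⟨e, he, k1, rfl, rfl⟩
    · exact (h.par j a k').mono fun y hy => ⟨List.mem_cons_of_mem _ hy, eD y hy⟩
    · exact .inr ⟨List.mem_cons_self, he, k1, rfl, by simp only [Arr.get_set_self]⟩
  · rcases h1 j a ma with k' | ⟨e, he, k1, rfl, rfl⟩
    · exact (hle x hx).trans (hmin j a k')
    · exact (hle x hx).trans (Nat.le_add_right _ _)
  · rcases List.mem_cons.1 hy with rfl | hy
    · simp only [Arr.get_set_self] at k2 ⊢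
      exact .inr ⟨_, h3 e he k1 k2, rfl⟩
    · simp only [eD y hy] at k2 ⊢
      exact c _ _ (h.arc y hy e he k1 k2)

theorem sp_body {s : PQ (ℕ × ℕ × ℕ) × Out} (hq : Ok B r s.1) (h : Inv G S r s.1.2.get s.2)
    (hn : nonE B s.1 = true) : Sp g (body G B r s) fun s' t => Ok B r s'.1 ∧
      Inv G S r s'.1.2.get s'.2 ∧ cnt r s'.1 + vol G s.2.1 + 1 ≤ cnt r s.1 + vol G s'.2.1 ∧
      t + (B + 2) * vol G s.2.1 ≤ 2 * B + 2 + (B + 2) * vol G s'.2.1 := by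
  refine (sp_minQ hq hn).bind fun k t ⟨ne, hmin, ht⟩ => ?_
  have hk := hq.2 k ne
  cases e : s.1.2.get k with
  | nil => exact absurd e ne
  | cons it l =>
    refine (sp_putQ hq l hk).bind fun q u ⟨hq1, e1, hu⟩ => ?_
    have hc := cnt_set hk e1
    rw [e, List.length_cons] at hc
    have m : it ∈ s.1.2.get k := e ▸ List.mem_cons_self
    have h1 : ∀ j a, a ∈ q.2.get j → a ∈ s.1.2.get j := fun j a ma => by
      rw [e1, Arr.get_set] at ma
      split_ifs at ma with c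
      · rw [c, e]; exact List.mem_cons_of_mem _ ma
      · exact ma
    have h2 : ∀ j a, a ∈ s.1.2.get j → a ∈ q.2.get j ∨ (j = k ∧ a = it) := fun j a ma => by
      rw [e1, Arr.get_set]
      split_ifs with c
      · rw [c, e] at ma; exact (List.mem_cons.1 ma).symm.imp_right fun k => ⟨c, k⟩
      · exact .inl ma
    refine sp_ite.2 ⟨fun hv => ⟨hq1, h.skip m ((h.vis _).1 hv) h1 h2, by dsimp only; omega,
      by dsimp only; omega⟩, fun hv => ?_⟩
    refine (sp_pushAll _ _ _ _ hq1).bind fun q' w ⟨hq2, mm, hc2, hw⟩ => ⟨hq2, h.add m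
      (mt (h.vis _).2 hv) hk (fun j a ma => hmin j (List.ne_nil_of_mem ma)) (fun j a ma => ?_)
      (fun j a ma => (h2 j a ma).imp_left fun k => (mm j a).2 (.inl k))
      (fun e he k1 k2 => (mm _ _).2 (.inr ⟨e, he, k1, k2, rfl, rfl⟩)), ?_, ?_⟩
    · exact ((mm j a).1 ma).imp (h1 j a) fun ⟨e, he, k1, _, k3⟩ => ⟨e, he, k1, k3⟩
    · simp only [vol, List.map_cons, List.sum_cons]; omega
    · simp only [vol, List.map_cons, List.sum_cons, mul_add, mul_one]; omega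

/-- **Dijkstra**: `Vol` bounds the volume of the ball -/
theorem sp_dij {fu Vol : ℕ} (hB : r < 2 ^ B)
    (hV : ∀ L : List ℕ, L.Nodup → (∀ x ∈ L, ∃ d ≤ r, Wk G S x d) → vol G L ≤ Vol)
    (hfu : S.length + Vol < fu) : Sp g (dij G B r fu S) fun o t => Res G S r o ∧
      t ≤ (3 * B + 5) * (S.length + vol G o.1) + 2 := by
  refine (sp_pushAll _ _ _ _ (ok_emp B r)).bind fun q t ⟨hq, mm, hc, ht⟩ => ?_
  have c0 : cnt r (emp (ℕ × ℕ × ℕ)) = 0 := by simp [cnt, emp]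
  refine (sp_whileF (fun (s : PQ (ℕ × ℕ × ℕ) × Out) u => Ok B r s.1 ∧ Inv G S r s.1.2.get s.2 ∧
    u + (2 * B + 3) * cnt r s.1 ≤ (2 * B + 3) * S.length + (3 * B + 5) * vol G s.2.1)
    (fun s => cnt r s.1 + (Vol - vol G s.2.1)) (fun s u ⟨a, b, c⟩ hn => (sp_body a b hn).mono
      fun s' w ⟨a', b', c', d'⟩ => ⟨⟨a', b', ?_⟩, ?_⟩) (t := 0) ⟨hq, ?_, ?_⟩ ?_).bind
      fun s u ⟨hn, u', e, a, b, c⟩ => ⟨b.res fun k => ?_, ?_⟩
  · have := Nat.mul_le_mul_left (2 * B + 3) c'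
    nlinarith
  · have := hV _ b'.nd fun x hx => ⟨_, (b'.wk x hx).2, (b'.wk x hx).1⟩
    have := hV _ b.nd fun x hx => ⟨_, (b.wk x hx).2, (b.wk x hx).1⟩
    omega
  · refine ⟨List.nodup_nil, by simp, by simp, .nil, trivial, fun k it m => ?_, by simp,
      fun p hp k => .inr ⟨_, (mm _ _).2 (.inr ⟨p, hp, rfl, k, rfl, rfl⟩), rfl⟩, by simp⟩
    rcases (mm _ _).1 m with k' | ⟨b, hb, _, _, rfl, rfl⟩
    · simp [emp] at k'
    · exact .inl ⟨rfl, hb⟩
  · have := Nat.mul_le_mul_left (2 * B + 3) (c0 ▸ hc)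
    simpa [vol] using this
  · simp only [vol, List.map_nil, List.sum_nil]; omega
  · by_contra k'
    exact Bool.false_ne_true (hn.symm.trans ((a.nonE hB).2 ⟨k, k'⟩))
  · nlinarith [Nat.zero_le ((2 * B + 3) * cnt r s.1)]

/-- the volume of a finite vertex set that contains the ball -/
theorem vol_le {V : Finset ℕ} (hV : ∀ x d, Wk G S x d → d ≤ r → x ∈ V) (L : List ℕ) (nd : L.Nodup)
    (h : ∀ x ∈ L, ∃ d ≤ r, Wk G S x d) : vol G L ≤ ∑ x ∈ V, (1 + (G.adj x).length) := by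
  rw [vol, ← List.sum_toFinset _ nd]
  exact sum_le_sum_of_subset fun x hx =>
    let ⟨d, a, b⟩ := h x (List.mem_toFinset.1 hx); hV x d b a

theorem Res.mem {o : Out} (h : Res G S r o) {x : ℕ} : x ∈ o.1 ↔ ∃ d ≤ r, Wk G S x d :=
  ⟨fun m => ⟨_, (h.wk x m).2, (h.wk x m).1⟩, fun ⟨d, a, b⟩ => (h.min x d b a).1⟩

theorem Res.le {o : Out} (h : Res G S r o) {x d : ℕ} (m : x ∈ o.1) (w : Wk G S x d) :
    o.2.1.get x ≤ d :=
  (le_total d r).elim (fun k => (h.min x d w k).2) fun k => (h.wk x m).2.trans k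

theorem Tree.par {D : ℕ → ℕ} {P : ℕ → ℕ × ℕ} {l1 l2 : List ℕ} {x : ℕ}
    (h : Tree G S D P (l1 ++ x :: l2)) : Par G S D l2 x (D x) (P x) := by
  induction l1 with
  | nil => exact h.1
  | cons a l ih => exact ih h.2

end Crest.Agent.N325.Dj
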