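import Crest.Agent.N325.Dj.Dij
import Crest.Agent.N325.Lst.ListImpl

/-!
# Row 325 (helper27): the priority queue and the Dijkstra search are implementable
-/

set_option autoImplicit false

namespace Crest.Agent.N325

open Dj

variable {α β γ : Type} [Rp α] [Rp β] [Rp γ] {σ : Bool}

@[fun_prop] theorem Pu.emp : Pu σ fun _ : α => Dj.emp β := by
  unfold Dj.emp; impl

@[fun_prop] theorem Impl.putQ {B k : α → ℕ} {l : α → List β} {q : α → PQ β} (hB : Pu true B)
    (hk : Pu true k) (hl : Pu true l) (hq : Pu true q) :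
    Impl fun a => Dj.putQ (B a) (k a) (l a) (q a) := by
  unfold Dj.putQ; impl

@[fun_prop] theorem Pu.nonE {B : α → ℕ} {q : α → PQ β} (hB : Pu false B) (hq : Pu false q) :
    Pu σ fun a => Dj.nonE (B a) (q a) := by
  refine Pu.bool ?_
  unfold Dj.nonE; impl

@[fun_prop] theorem Impl.minQ {B r : α → ℕ} {q : α → PQ β} (hB : Pu true B)
    (hr : Pu true r) (hq : Pu true q) : Impl fun a => Dj.minQ (B a) (r a) (q a) := by
  unfold Dj.minQ; impl

@[fun_prop] theorem Impl.pushAll {B r : α → ℕ} {c : α → γ → Bool} {key : α → γ → ℕ}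
    {it : α → γ → β} {l : α → List γ} {q : α → PQ β} (hB : Pu true B) (hr : Pu true r)
    (hc : Pu false fun p : α × γ => c p.1 p.2) (hk : Pu false fun p : α × γ => key p.1 p.2)
    (hi : Pu true fun p : α × γ => it p.1 p.2) (hl : Pu true l) (hq : Pu true q) :
    Impl fun a => Dj.pushAll (B a) (r a) (c a) (key a) (it a) (l a) (q a) := by
  unfold Dj.pushAll; impl

theorem Impl.dij' {adj : α → ℕ → List ℕ} {ok : α → ℕ → ℕ → Bool} {hd ln : α → ℕ → ℕ → ℕ}
    {B r fu : α → ℕ} {S : α → List (ℕ × ℕ)} (h1 : Pu true fun p : α × ℕ => adj p.1 p.2)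
    (h2 : Pu false fun p : α × ℕ × ℕ => ok p.1 p.2.1 p.2.2)
    (h3 : Pu true fun p : α × ℕ × ℕ => hd p.1 p.2.1 p.2.2)
    (h4 : Pu false fun p : α × ℕ × ℕ => ln p.1 p.2.1 p.2.2) (hB : Pu true B) (hr : Pu true r)
    (hf : Pu true fu) (hS : Pu true S) :
    Impl fun a => Dj.dij ⟨adj a, ok a, hd a, ln a⟩ (B a) (r a) (fu a) (S a) := by
  unfold Dj.dij; impl

@[fun_prop] theorem Impl.dij {G : α → Dg} {B r fu : α → ℕ} {S : α → List (ℕ × ℕ)}
    (h1 : Pu true fun p : α × ℕ => (G p.1).adj p.2)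
    (h2 : Pu false fun p : α × ℕ × ℕ => (G p.1).ok p.2.1 p.2.2)
    (h3 : Pu true fun p : α × ℕ × ℕ => (G p.1).hd p.2.1 p.2.2)
    (h4 : Pu false fun p : α × ℕ × ℕ => (G p.1).ln p.2.1 p.2.2) (hB : Pu true B) (hr : Pu true r)
    (hf : Pu true fu) (hS : Pu true S) : Impl fun a => Dj.dij (G a) (B a) (r a) (fu a) (S a) :=
  Impl.dij' (adj := fun a => (G a).adj) (ok := fun a => (G a).ok) (hd := fun a => (G a).hd)
    (ln := fun a => (G a).ln) h1 h2 h3 h4 hB hr hf hS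

/-- a test: an undirected graph on arrays with a mask -/
example : Impl fun a : (Arr (List ℕ) × Arr ℕ × Arr ℕ × Arr ℕ × Arr Bool) × ℕ × ℕ × ℕ × ℕ =>
    Dj.dij ⟨a.1.1.get, fun x e => a.1.2.2.2.2.get (if a.1.2.1.get e = x then a.1.2.2.1.get e
      else a.1.2.1.get e), fun x e => if a.1.2.1.get e = x then a.1.2.2.1.get e else a.1.2.1.get e,
      fun _ e => a.1.2.2.2.1.get e⟩ a.2.1 a.2.2.1 a.2.2.2.1 [(a.2.2.2.2, 0)] := by
  impl

end Crest.Agent.N325
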