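import Crest.Agent.N325.Lst.ListR

/-!
# Row 325 (helper27): a priority queue with keys below `2 ^ B` (a bit trie over buckets)
-/

set_option autoImplicit false
open Finset

namespace Crest.Agent.N325.Dj

variable {α β : Type} {g : Gl}

theorem sp_forPI {σ : Type} (f : ℕ → σ → σ) (I : ℕ → σ → Prop) (n : ℕ) (s : σ)
    (h : ∀ j s, j < n → I j s → I (j + 1) (f j s)) (h0 : I 0 s) :
    Sp g (forP f n 0 s) fun s' t => I n s' ∧ t ≤ n + 1 :=
  (sp_forN' (g := g) (f := fun j s => pure (f j s)) I (n := n) (i := 0) 0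
    (fun j s _ hj k => ⟨h j s (by omega) k, le_rfl⟩) h0).mono fun _ _ k => by simpa using k

/-- occupancy of the key prefixes, buckets -/
abbrev PQ (α : Type) : Type := Arr (Arr Bool) × Arr (List α)

/-- some key with the prefix `i` is used -/
def Occ (bk : ℕ → List α) (t i : ℕ) : Prop := ∃ k, k / 2 ^ t = i ∧ bk k ≠ []

/-- the invariant of the queue -/
def Ok (B r : ℕ) (q : PQ α) : Prop :=
  (∀ t ≤ B, ∀ i, (q.1.get t).get i = true ↔ Occ q.2.get t i) ∧ ∀ k, q.2.get k ≠ [] → k ≤ r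

/-- the empty queue -/
def emp (α : Type) : PQ α := (Arr.cst (Arr.cst false), Arr.cst [])

theorem ok_emp (B r : ℕ) : Ok B r (emp α) :=
  ⟨fun _ _ _ => by simp [emp, Occ], fun _ h => absurd rfl h⟩

/-- the number of items -/
def cnt (r : ℕ) (q : PQ α) : ℕ := ∑ k ∈ range (r + 1), (q.2.get k).length

theorem occ_succ (bk : ℕ → List α) (t i : ℕ) :
    Occ bk (t + 1) i ↔ Occ bk t (2 * i) ∨ Occ bk t (2 * i + 1) := by
  simp only [Occ, pow_succ, ← Nat.div_div_eq_div_mul]
  constructor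
  · rintro ⟨k, e, h⟩
    rcases Nat.mod_two_eq_zero_or_one (k / 2 ^ t) with m | m
    · exact .inl ⟨k, by omega, h⟩
    · exact .inr ⟨k, by omega, h⟩
  · rintro (⟨k, e, h⟩ | ⟨k, e, h⟩) <;> exact ⟨k, by omega, h⟩

/-- recompute one level -/
def putS (j : ℕ) (s : ℕ × Arr (Arr Bool)) : ℕ × Arr (Arr Bool) :=
  (s.1 / 2, s.2.set (j + 1) ((s.2.get (j + 1)).set (s.1 / 2)
    ((s.2.get j).get (2 * (s.1 / 2)) || (s.2.get j).get (2 * (s.1 / 2) + 1))))

/-- replace the bucket `k` by `l` -/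
def putQ (B k : ℕ) (l : List α) (q : PQ α) : R (PQ α) :=
  forP putS B 0 (k, q.1.set 0 ((q.1.get 0).set k (!l.isEmpty))) >>= fun s => pure (s.2, q.2.set k l)

theorem occ_set {bk : Arr (List α)} {k t i : ℕ} (l : List α) (h : k / 2 ^ t ≠ i) :
    Occ (bk.set k l).get t i ↔ Occ bk.get t i :=
  exists_congr fun j => and_congr_right fun e => by
    rw [Arr.get_set_ne _ fun k' : j = k => h (k' ▸ e)]

theorem sp_putQ {B r k : ℕ} {q : PQ α} (h : Ok B r q) (l : List α) (hk : k ≤ r) :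
    Sp g (putQ B k l q) fun q' t => Ok B r q' ∧ q'.2 = q.2.set k l ∧ t ≤ B + 1 := by
  refine (sp_forPI putS (fun j s => s.1 = k / 2 ^ j ∧
    (∀ t ≤ j, ∀ i, (s.2.get t).get i = true ↔ Occ (q.2.set k l).get t i) ∧
    ∀ t, j < t → s.2.get t = q.1.get t) B _ (fun j s hj ⟨h1, h2, h3⟩ => ⟨?_, fun t ht i => ?_,
      fun t ht => ?_⟩) ⟨by simp, fun t ht i => ?_, fun t ht => ?_⟩).bind
      fun s t ⟨⟨_, h2, _⟩, c⟩ => ⟨⟨h2, fun j hj => ?_⟩, rfl, c⟩
  · rw [putS, h1, pow_succ, Nat.div_div_eq_div_mul]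
  · have e : s.1 / 2 = k / 2 ^ (j + 1) := by rw [h1, pow_succ, Nat.div_div_eq_div_mul]
    rcases ht.eq_or_lt with rfl | ht
    · simp only [putS, Arr.get_set_self, Arr.get_set]
      split_ifs with c
      · rw [c, occ_succ, Bool.or_eq_true, h2 j le_rfl, h2 j le_rfl]
      · rw [h3 _ (Nat.lt_succ_self j), occ_set l fun k' => c (e ▸ k'.symm), h.1 _ (by omega)]
    · simp only [putS]
      rw [Arr.get_set_ne _ ht.ne, h2 t (by omega)]
  · simp only [putS]
    rw [Arr.get_set_ne _ ht.ne', h3 t (by omega)]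
  · obtain rfl : t = 0 := by omega
    simp only [Arr.get_set_self, Arr.get_set]
    split_ifs with c
    · subst c; simp [Occ]
    · rw [occ_set l (by simpa using Ne.symm c), h.1 0 (Nat.zero_le _)]
  · exact Arr.get_set_ne _ ht.ne' _
  · by_cases e : j = k
    · exact e ▸ hk
    · exact h.2 j (by rwa [Arr.get_set_ne _ e] at hj)

theorem cnt_set {r k : ℕ} {q q' : PQ α} {l : List α} (hk : k ≤ r) (e : q'.2 = q.2.set k l) :
    cnt r q' + (q.2.get k).length = cnt r q + l.length := by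
  have hm : k ∈ range (r + 1) := mem_range.2 (by omega)
  unfold cnt
  rw [← add_sum_erase _ _ hm, ← add_sum_erase _ (fun u => (q.2.get u).length) hm, e,
    Arr.get_set_self, sum_congr rfl fun u hu => by rw [Arr.get_set_ne _ (ne_of_mem_erase hu)]]
  omega

/-- the queue is not empty -/
def nonE (B : ℕ) (q : PQ α) : Bool := (q.1.get B).get 0

theorem Ok.nonE {B r : ℕ} {q : PQ α} (h : Ok B r q) (hB : r < 2 ^ B) :
    nonE B q = true ↔ ∃ k, q.2.get k ≠ [] :=
  (h.1 B le_rfl 0).trans <| exists_congr fun k =>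
    and_iff_right_of_imp fun e => Nat.div_eq_of_lt ((h.2 k e).trans_lt hB)

/-- one step down the trie -/
def minS (h : Arr (Arr Bool)) (B r j p : ℕ) : ℕ :=
  if (h.get (B - (j + 1))).get (2 * p) = true then min (2 * p) r else min (2 * p + 1) r

/-- the least key in use -/
def minQ (B r : ℕ) (q : PQ α) : R ℕ := forP (minS q.1 B r) B 0 0

theorem sp_minQ {B r : ℕ} {q : PQ α} (h : Ok B r q) (hn : nonE B q = true) :
    Sp g (minQ B r q) fun k t => q.2.get k ≠ [] ∧ (∀ j, q.2.get j ≠ [] → k ≤ j) ∧ t ≤ B + 1 := by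
  refine (sp_forPI _ (fun j p => Occ q.2.get (B - j) p ∧
    ∀ i, q.2.get i ≠ [] → p ≤ i / 2 ^ (B - j)) B 0
    (fun j p hj ⟨h1, h2⟩ => ?_) ⟨(h.1 B le_rfl 0).1 hn, fun _ _ => Nat.zero_le _⟩).mono
    fun k t ⟨⟨h1, h2⟩, c⟩ => ?_
  · obtain ⟨u, e⟩ : ∃ u, B - j = u + 1 := ⟨B - (j + 1), by omega⟩
    have e' : B - (j + 1) = u := by omega
    have hr : ∀ i, Occ q.2.get u i → min i r = i := fun i ⟨k, e1, e2⟩ =>
      min_eq_left (e1 ▸ (Nat.div_le_self _ _).trans (h.2 k e2))
    simp only [minS, e', e, pow_succ, ← Nat.div_div_eq_div_mul, occ_succ] at h1 h2 ⊢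
    have h0 := h.1 u (by omega) (2 * p)
    split_ifs with c
    · rw [hr _ (h0.1 c)]
      exact ⟨h0.1 c, fun i hi => by have := h2 i hi; omega⟩
    · have h3 := h1.resolve_left (mt h0.2 c)
      rw [hr _ h3]
      refine ⟨h3, fun i hi => ?_⟩
      have := h2 i hi
      have : i / 2 ^ u ≠ 2 * p := fun k => c (h0.2 ⟨i, k, hi⟩)
      omega
  · simp only [Nat.sub_self, pow_zero, Nat.div_one, Occ, exists_eq_left] at h1 h2
    exact ⟨h1, h2, c⟩

/-- insert the items `it b` with keys `key b ≤ r`, for the `b` in `l` with `c b` -/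
def pushAll (B r : ℕ) (c : β → Bool) (key : β → ℕ) (it : β → α) (l : List β) (q : PQ α) :
    R (PQ α) :=
  foldL (fun b q => if c b = true ∧ key b ≤ r then
    putQ B (min (key b) r) (it b :: q.2.get (min (key b) r)) q else pure q) l q

theorem sp_pushAll {B r : ℕ} (c : β → Bool) (key : β → ℕ) (it : β → α) (l : List β) {q : PQ α}
    (h : Ok B r q) : Sp g (pushAll B r c key it l q) fun q' t => Ok B r q' ∧
      (∀ j a, a ∈ q'.2.get j ↔ a ∈ q.2.get j ∨
        ∃ b ∈ l, c b = true ∧ key b ≤ r ∧ key b = j ∧ it b = a) ∧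
      cnt r q' ≤ cnt r q + l.length ∧ t ≤ (B + 2) * l.length + 1 := by
  unfold pushAll
  induction l generalizing q with
  | nil => exact ⟨Nat.zero_le _, h, by simp, le_rfl, by simp⟩
  | cons b l ih =>
    refine ⟨Nat.zero_le _, sp_bind.2 (sp_ite.2 ⟨fun hc => ?_, fun hc => ?_⟩)⟩
    · rw [min_eq_left hc.2]
      refine (sp_putQ h _ hc.2).mono fun q1 t ⟨h1, e, ht⟩ => (ih h1).mono
        fun q2 u ⟨h2, m, n, hu⟩ => ⟨h2, fun j a => ?_, ?_, ?_⟩
      · rw [m, e, Arr.get_set]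
        simp only [List.mem_cons, exists_eq_or_imp, hc.1, hc.2, true_and]
        split_ifs with k
        · subst k; simp only [List.mem_cons, true_and]; tauto
        · simp [Ne.symm k]
      · have := cnt_set hc.2 e
        simp only [List.length_cons] at this ⊢
        omega
      · rw [List.length_cons, mul_add]; omega
    · refine (ih h).mono fun q2 u ⟨h2, m, n, hu⟩ => ⟨h2, fun j a => ?_, ?_, ?_⟩
      · rw [m]
        simp only [List.mem_cons, exists_eq_or_imp]
        tauto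
      · rw [List.length_cons]; omega
      · rw [List.length_cons, mul_add]; omega

end Crest.Agent.N325.Dj
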